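import Vale.Agent.P235.ST.H317.Defs2

/-! P235, (ST) O(1): row B11 (r14), cutting of a path into pieces and the step of the invariant,
from the piece lemma (r13) and `nxt_le` (r4). -/

namespace Vale.Agent.P235.STO.H774

open SimpleGraph Vale.Agent.P235.STO

variable {V : Type} (W : LWorld V)

theorem cost_nonneg {G : SimpleGraph V} (w : V → ℝ) : ∀ {x y : V} (p : G.Walk x y), 0 ≤ cost w p
  | _, _, .nil => le_rfl
  | _, _, .cons _ p => add_nonneg (abs_nonneg _) (cost_nonneg w p)

theorem cost_append {G : SimpleGraph V} (w : V → ℝ) : ∀ {x y z : V} (p : G.Walk x y)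
    (q : G.Walk y z), cost w (p.append q) = cost w p + cost w q
  | _, _, _, .nil, q => by simp [cost]
  | _, _, _, .cons _ p, q => by
    rw [Walk.cons_append]
    simp only [cost]
    rw [cost_append w p q]
    ring

/-- first exit from the set where `P` fails -/
theorem first_exit {G : SimpleGraph V} (P : V → Prop) : ∀ {p q : V} (g : G.Walk p q), ¬ P p →
    (∀ z ∈ g.support, ¬ P z) ∨
    ∃ (b c : V) (g0 : G.Walk p b) (h : G.Adj b c) (g2 : G.Walk c q),
      g = (g0.append (Walk.cons h Walk.nil)).append g2 ∧ (∀ z ∈ g0.support, ¬ P z) ∧ P c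
  | _, _, .nil, hp => by
    left
    intro z hz
    rw [Walk.support_nil, List.mem_singleton] at hz
    rw [hz]
    exact hp
  | p, q, .cons (v := v) h g, hp => by
    by_cases hv : P v
    · right
      refine ⟨p, v, Walk.nil, h, g, ?_, ?_, hv⟩
      · rw [Walk.nil_append, Walk.cons_append, Walk.nil_append]
      · intro z hz
        rw [Walk.support_nil, List.mem_singleton] at hz
        rw [hz]
        exact hp
    · rcases first_exit P g hv with h1 | ⟨b, c, g0, h0, g2, e, h2, h3⟩
      · left
        intro z hz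
        rw [Walk.support_cons, List.mem_cons] at hz
        rcases hz with rfl | hz
        · exact hp
        · exact h1 z hz
      · right
        refine ⟨b, c, Walk.cons h g0, h0, g2, ?_, ?_, h3⟩
        · rw [Walk.cons_append, Walk.cons_append, ← e]
        · intro z hz
          rw [Walk.support_cons, List.mem_cons] at hz
          rcases hz with rfl | hz
          · exact hp
          · exact h2 z hz

theorem d_nonneg (x y : V) : 0 ≤ W.d x y := Nat.cast_nonneg _

theorem d_self (x : V) : W.d x x = 0 := by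
  unfold LWorld.d
  rw [SimpleGraph.dist_self]
  exact Nat.cast_zero

theorem d_comm (x y : V) : W.d x y = W.d y x := by
  unfold LWorld.d
  rw [SimpleGraph.dist_comm]

theorem d_tri (x y z : V) : W.d x z ≤ W.d x y + W.d y z := by
  unfold LWorld.d
  exact_mod_cast W.conn.dist_triangle

theorem d_adj {x y : V} (h : W.G.Adj x y) : W.d x y = 1 := by
  unfold LWorld.d
  rw [SimpleGraph.dist_eq_one_iff_adj.2 h]
  exact Nat.cast_one

theorem cost_bypass {G : SimpleGraph V} [DecidableEq V] (w : V → ℝ) : ∀ {x y : V}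
    (p : G.Walk x y), cost w p.bypass ≤ cost w p
  | _, _, .nil => le_rfl
  | x, _, .cons (v := v) h p => by
    have h1 := cost_bypass w p
    unfold Walk.bypass
    by_cases hs : x ∈ p.bypass.support
    · simp only [hs, dif_pos]
      have h2 := cost_append w (p.bypass.takeUntil x hs) (p.bypass.dropUntil x hs)
      rw [Walk.take_spec] at h2
      have h3 := cost_nonneg w (p.bypass.takeUntil x hs)
      simp only [cost]
      have h4 := abs_nonneg (w x - w v)
      linarith
    · simp only [hs, dif_neg, not_false_eq_true, cost]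
      linarith

variable [Fintype V]

/-- the piece lemma (statement of r13) -/
def Piece : Prop := ∀ (ρ w : V → ℝ), W.Scale ρ → W.Inv (W.nxt ρ) w → ∀ (p q : V)
  (g : W.G.Walk p q), g.IsPath → (∀ z ∈ g.support, W.d p z ≤ kap * ρ p / 4 + 1) →
  C1 * d1 * ρ p ≤ W.d p q → W.d p q / 240 ≤ cost w g

/-- one cut: either the whole path is in the ball, or the first piece is good -/
theorem one_cut (hP : Piece W) {ρ w : V → ℝ} (hρ : W.Scale ρ) (hw : W.Inv (W.nxt ρ) w) {p q : V}
    (g : W.G.Walk p q) (hg : g.IsPath) :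
    (∀ z ∈ g.support, W.d p z ≤ kap * ρ p / 4 + 1) ∨
    ∃ (c : V) (g1 : W.G.Walk p c) (g2 : W.G.Walk c q), g = g1.append g2 ∧ g2.IsPath ∧
      g2.length < g.length ∧ 1 ≤ W.d p c ∧ kap * ρ p / 4 ≤ W.d p c ∧
      W.d p c / 240 ≤ cost w g1 := by
  have hk : (0 : ℝ) < kap := by unfold kap; positivity
  have hp0 : ¬ (1 ≤ W.d p p ∧ kap * ρ p / 4 ≤ W.d p p) := by
    rw [d_self]
    rintro ⟨h, _⟩
    linarith
  rcases first_exit (fun z => 1 ≤ W.d p z ∧ kap * ρ p / 4 ≤ W.d p z) g hp0 with h1 |
      ⟨b, c, g0, h, g2, e, h2, h3⟩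
  · left
    intro z hz
    have h4 := h1 z hz
    have h5 := hρ.nonneg p
    by_contra hcon
    have h6 := not_le.1 hcon
    have h7 : 0 ≤ kap * ρ p / 4 := by positivity
    exact h4 ⟨by linarith, by linarith⟩
  · right
    have hgp : ((g0.append (Walk.cons h Walk.nil)).append g2).IsPath := e ▸ hg
    have hg1 : (g0.append (Walk.cons h Walk.nil)).IsPath := hgp.of_append_left
    have hg2 : g2.IsPath := hgp.of_append_right
    have hball0 : ∀ z ∈ g0.support, W.d p z < max 1 (kap * ρ p / 4) := by
      intro z hz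
      have h4 := h2 z hz
      by_contra hcon
      have h6 := not_lt.1 hcon
      exact h4 ⟨le_trans (le_max_left _ _) h6, le_trans (le_max_right _ _) h6⟩
    have h5 := hρ.nonneg p
    have h7 : 0 ≤ kap * ρ p / 4 := by positivity
    have hc1 : W.d p c ≤ kap * ρ p / 4 + 1 := by
      have hb := hball0 b (Walk.end_mem_support _)
      have h8 := d_tri W p b c
      rw [d_adj W h] at h8
      rcases le_total 1 (kap * ρ p / 4) with h9 | h9
      · rw [max_eq_right h9] at hb
        linarith
      · rw [max_eq_left h9] at hb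
        -- `d p b < 1` so `d p b = 0`
        have h10 : W.G.dist p b < 1 := by
          unfold LWorld.d at hb
          exact_mod_cast hb
        have h11 : W.d p b = 0 := by
          unfold LWorld.d
          have : W.G.dist p b = 0 := by omega
          rw [this]
          exact Nat.cast_zero
        rw [h11] at h8
        linarith
    have hball : ∀ z ∈ (g0.append (Walk.cons h Walk.nil)).support,
        W.d p z ≤ kap * ρ p / 4 + 1 := by
      intro z hz
      rw [Walk.mem_support_append_iff, Walk.support_cons, Walk.support_nil, List.mem_cons,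
        List.mem_singleton] at hz
      have hz0 : ∀ z ∈ g0.support, W.d p z ≤ kap * ρ p / 4 + 1 := by
        intro z hz
        have h8 := hball0 z hz
        rcases max_cases 1 (kap * ρ p / 4) with h9 | h9
        · linarith [h9.1]
        · linarith [h9.1]
      rcases hz with hz | rfl | rfl
      · exact hz0 z hz
      · exact hz0 _ (Walk.end_mem_support _)
      · exact hc1
    have he : C1 * d1 * ρ p ≤ W.d p c := by
      refine le_trans ?_ h3.2
      have h8 : C1 * d1 ≤ kap / 4 := by
        unfold C1 d1 kap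
        norm_num
      calc C1 * d1 * ρ p ≤ kap / 4 * ρ p := mul_le_mul_of_nonneg_right h8 h5
        _ = kap * ρ p / 4 := by ring
    refine ⟨c, g0.append (Walk.cons h Walk.nil), g2, e, hg2, ?_, h3.1, h3.2,
      hP _ _ hρ hw _ _ _ hg1 hball he⟩
    rw [e, Walk.length_append, Walk.length_append, Walk.length_cons]
    omega

theorem lb_aux (hP : Piece W) {ρ w : V → ℝ} (hρ : W.Scale ρ) (hw : W.Inv (W.nxt ρ) w) : ∀ (n : ℕ) {p q : V}
    (g : W.G.Walk p q), g.length ≤ n → g.IsPath →
    (W.d p q - kap * ρ p / 4 - 1) / 320 ≤ cost w g := by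
  intro n
  induction n with
  | zero =>
    intro p q g hn hg
    have h0 : g.length = 0 := by omega
    have h1 := Walk.eq_of_length_eq_zero h0
    subst h1
    rw [d_self]
    have h2 := cost_nonneg w g
    have h5 := hρ.nonneg p
    have hk : (0 : ℝ) < kap := by unfold kap; positivity
    have h7 : 0 ≤ kap * ρ p / 4 := by positivity
    linarith
  | succ n ih =>
    intro p q g hn hg
    rcases one_cut W hP hρ hw g hg with h1 | ⟨c, g1, g2, e, hg2, hl, hc1, hc2, hc3⟩
    · have h2 := h1 q (Walk.end_mem_support _)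
      have h3 := cost_nonneg w g
      linarith
    · have h4 := ih g2 (by omega) hg2
      have h5 : cost w g = cost w g1 + cost w g2 := by rw [e, cost_append]
      have h6 := d_tri W p c q
      have h7 := (abs_le.1 (hρ.lip c p)).2
      have hk : (0 : ℝ) < kap := by unfold kap; positivity
      have h8 : kap * ρ c ≤ kap * ρ p + W.d p c := by
        have h9 : ρ c ≤ ρ p + W.d c p / kap := by linarith
        have h10 := mul_le_mul_of_nonneg_left h9 hk.le
        rw [mul_add, mul_div_cancel₀ _ hk.ne'] at h10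
        rw [d_comm W p c]
        exact h10
      have h11 := d_nonneg W p c
      rw [h5]
      linarith

/-- r14, first half -/
theorem lb_cut_of (hP : Piece W) {ρ w : V → ℝ} (hρ : W.Scale ρ) (hw : W.Inv (W.nxt ρ) w) {p q : V}
    (g : W.G.Walk p q) (hg : g.IsPath) (he : C1 * d1 * ρ p ≤ W.d p q) :
    W.d p q / 960 ≤ cost w g := by
  have h0 := d_nonneg W p q
  rcases one_cut W hP hρ hw g hg with h1 | ⟨c, g1, g2, e, hg2, hl, hc1, hc2, hc3⟩
  · have h2 := hP _ _ hρ hw _ _ g hg h1 he
    linarith
  · have h4 := lb_aux W hP hρ hw _ g2 le_rfl hg2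
    have h4' := cost_nonneg w g2
    have h5 : cost w g = cost w g1 + cost w g2 := by rw [e, cost_append]
    have h6 := d_tri W p c q
    have h7 := (abs_le.1 (hρ.lip c p)).2
    have hk : (0 : ℝ) < kap := by unfold kap; positivity
    have h8 : kap * ρ c ≤ kap * ρ p + W.d p c := by
      have h9 : ρ c ≤ ρ p + W.d c p / kap := by linarith
      have h10 := mul_le_mul_of_nonneg_left h9 hk.le
      rw [mul_add, mul_div_cancel₀ _ hk.ne'] at h10
      rw [d_comm W p c]
      exact h10
    rw [h5]
    rcases le_total (W.d p q / 4) (W.d p c) with h9 | h9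
    · linarith
    · linarith

omit [Fintype V] in
theorem cost_tilt {G : SimpleGraph V} {w v : V → ℝ}
    (h1 : ∀ x y, G.Adj x y → |v x - v y| ≤ e1 * |w x - w y|) :
    ∀ {x y : V} (p : G.Walk x y), (1 - e1) * cost w p ≤ cost (fun x => w x + v x) p
  | _, _, .nil => by simp [cost]
  | x, _, .cons (v := z) h p => by
    simp only [cost]
    have h2 := cost_tilt h1 p
    have h3 := h1 x z h
    have h4 : |w x - w z| ≤ |w x + v x - (w z + v z)| + |v x - v z| := by
      have h5 : w x - w z = (w x + v x - (w z + v z)) + (-(v x - v z)) := by ring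
      calc |w x - w z| = |(w x + v x - (w z + v z)) + (-(v x - v z))| := by rw [← h5]
        _ ≤ |w x + v x - (w z + v z)| + |-(v x - v z)| := abs_add_le _ _
        _ = _ := by rw [abs_neg]
    rw [mul_add]
    have h6 : (1 - e1) * |w x - w z| ≤ |w x + v x - (w z + v z)| := by
      rw [sub_mul, one_mul]
      linarith
    linarith

/-- r14, second half -/
theorem inv_step_of (hP : Piece W)
    (hN : ∀ ρ : V → ℝ, W.Scale ρ → ∀ x, W.nxt ρ x ≤ 16 * d1 * ρ x) {ρ w v : V → ℝ} (hρ : W.Scale ρ) (hw : W.Inv (W.nxt ρ) w)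
    (h1 : ∀ x y, W.G.Adj x y → |v x - v y| ≤ e1 * |w x - w y|)
    (h2 : ∀ x, |v x| ≤ e1 * ρ x) : W.Inv ρ (fun x => w x + v x) := by
  classical
  have he0 : (0 : ℝ) < e1 := by unfold e1; positivity
  have he1 : e1 < 1 := by unfold e1; norm_num
  refine ⟨?_, ?_, ?_⟩
  · intro x y hxy
    have h3 := hw.sign x y hxy
    have h4 := h1 x y hxy
    have h5 : |w x - w y| * |(W.u x : ℝ) - W.u y| = (w x - w y) * ((W.u x : ℝ) - W.u y) := by
      rw [← abs_mul, abs_of_pos h3]
    have h6 : -(e1 * (|w x - w y| * |(W.u x : ℝ) - W.u y|)) ≤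
        (v x - v y) * ((W.u x : ℝ) - W.u y) := by
      have h7 : |(v x - v y) * ((W.u x : ℝ) - W.u y)| ≤
          e1 * (|w x - w y| * |(W.u x : ℝ) - W.u y|) := by
        rw [abs_mul, ← mul_assoc]
        exact mul_le_mul_of_nonneg_right h4 (abs_nonneg _)
      exact (abs_le.1 h7).1
    rw [h5] at h6
    have h8 : (w x + v x - (w y + v y)) * ((W.u x : ℝ) - W.u y) =
        (w x - w y) * ((W.u x : ℝ) - W.u y) + (v x - v y) * ((W.u x : ℝ) - W.u y) := by ring
    show 0 < (w x + v x - (w y + v y)) * ((W.u x : ℝ) - W.u y)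
    rw [h8]
    nlinarith
  · intro x
    have h3 := hw.close x
    have h4 := hN ρ hρ x
    have h5 := h2 x
    have h6 := hρ.nonneg x
    have h7 : 32 * d1 ≤ 1 := by unfold d1; norm_num
    have h8 : |w x + v x - W.u x| ≤ |w x - W.u x| + |v x| := by
      have h9 : w x + v x - W.u x = (w x - W.u x) + v x := by ring
      rw [h9]
      exact abs_add_le _ _
    have h9 : 2 * e1 * W.nxt ρ x ≤ e1 * ρ x := by
      calc 2 * e1 * W.nxt ρ x ≤ 2 * e1 * (16 * d1 * ρ x) :=
            mul_le_mul_of_nonneg_left h4 (by positivity)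
        _ = e1 * ρ x * (32 * d1) := by ring
        _ ≤ e1 * ρ x * 1 := mul_le_mul_of_nonneg_left h7 (by positivity)
        _ = e1 * ρ x := mul_one _
    show |w x + v x - W.u x| ≤ 2 * e1 * ρ x
    linarith
  · intro p q g he
    have h3 := lb_cut_of W hP hρ hw g.bypass (Walk.bypass_isPath g) he
    have h4 := cost_tilt (w := w) (v := v) h1 g.bypass
    have h5 := cost_bypass (fun x => w x + v x) g
    have h6 := d_nonneg W p q
    have h7 : c2 * W.d p q ≤ (1 - e1) * (W.d p q / 960) := by
      have h8 : c2 ≤ (1 - e1) / 960 := by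
        unfold c2 e1
        norm_num
      calc c2 * W.d p q ≤ (1 - e1) / 960 * W.d p q := mul_le_mul_of_nonneg_right h8 h6
        _ = _ := by ring
    have h9 : (1 - e1) * (W.d p q / 960) ≤ (1 - e1) * cost w g.bypass :=
      mul_le_mul_of_nonneg_left h3 (by linarith)
    linarith

end Vale.Agent.P235.STO.H774
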